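import Vale.Agent.P296.Spec
import Vale.Agent.P071.Spec

/-! Module M: the dual norm of a Griffiths positive metric. -/

namespace Vale.Agent.P296
namespace Me

open Matrix Complex Filter Topology Vale.Agent.P071
open scoped ComplexOrder ContDiff ComplexConjugate InnerProductSpace

abbrev M2 : Type := Matrix (Fin 2) (Fin 2) ℂ

/-- Euclidean norm -/
noncomputable def en (x : V2) : ℝ := ‖(WithLp.toLp 2 x : EuclideanSpace ℂ (Fin 2))‖

lemma en_sq (x : V2) : x ⬝ᵥ star x = ((en x ^ 2 : ℝ) : ℂ) := by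
  rw [← EuclideanSpace.inner_toLp_toLp, inner_self_eq_norm_sq_to_K]; simp [en]

lemma en_cs (x y : V2) : ‖x ⬝ᵥ y‖ ≤ en x * en y := by
  have := norm_inner_le_norm (𝕜 := ℂ) (WithLp.toLp 2 (star y) : EuclideanSpace ℂ (Fin 2))
    (WithLp.toLp 2 x)
  rw [EuclideanSpace.inner_toLp_toLp, star_star] at this
  refine this.trans (le_of_eq ?_)
  rw [mul_comm, en, en]
  congr 1
  simp [EuclideanSpace.norm_eq]

open scoped MatrixOrder in
lemma fac {H : M2} (h : H.PosDef) : ∃ B C : M2, B * C = 1 ∧ C * B = 1 ∧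
    (∀ v : V2, v ⬝ᵥ H⁻¹ *ᵥ star v = ((en (v ᵥ* C) ^ 2 : ℝ) : ℂ)) ∧
    ∀ u : V2, star u ⬝ᵥ H *ᵥ u = ((en (B *ᵥ u) ^ 2 : ℝ) : ℂ) := by
  obtain ⟨B, hB⟩ := CStarAlgebra.nonneg_iff_eq_star_mul_self.mp h.posSemidef.nonneg
  rw [star_eq_conjTranspose] at hB
  have h1 : IsUnit B.det := by
    have := (Matrix.isUnit_iff_isUnit_det H).1 h.isUnit
    rw [hB, det_mul] at this
    exact isUnit_of_mul_isUnit_right this
  have h2 : H⁻¹ = B⁻¹ * B⁻¹ᴴ := by
    rw [hB, Matrix.mul_inv_rev, conjTranspose_nonsing_inv]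
  refine ⟨B, B⁻¹, mul_nonsing_inv _ h1, nonsing_inv_mul _ h1, fun v => ?_, fun u => ?_⟩
  · rw [← en_sq, h2, ← mulVec_mulVec, dotProduct_mulVec, star_vecMul]
  · rw [← en_sq, hB, ← mulVec_mulVec, dotProduct_mulVec, star_mulVec, dotProduct_comm]

lemma nv_eq {H C : M2} (h : ∀ v : V2, v ⬝ᵥ H⁻¹ *ᵥ star v = ((en (v ᵥ* C) ^ 2 : ℝ) : ℂ)) (v : V2) :
    nv H v = en (v ᵥ* C) := by
  rw [nv, h, ofReal_re]; exact Real.sqrt_sq (norm_nonneg _)

lemma nv_add {H : M2} (h : H.PosDef) (v w : V2) : nv H (v + w) ≤ nv H v + nv H w := by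
  obtain ⟨B, C, -, -, h1, -⟩ := fac h
  simp only [nv_eq h1, add_vecMul]
  exact norm_add_le (WithLp.toLp 2 (v ᵥ* C) : EuclideanSpace ℂ (Fin 2)) (WithLp.toLp 2 (w ᵥ* C))

lemma nv_smul {H : M2} (h : H.PosDef) (c : ℂ) (v : V2) : nv H (c • v) = ‖c‖ * nv H v := by
  obtain ⟨B, C, -, -, h1, -⟩ := fac h
  simp only [nv_eq h1, smul_vecMul]
  exact norm_smul c (WithLp.toLp 2 (v ᵥ* C) : EuclideanSpace ℂ (Fin 2))

lemma nv_glue (H g g' : M2) (v : V2) (hg : g * g' = 1) : nv (gᴴ * H * g) (v ᵥ* g) = nv H v := by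
  have e : g⁻¹ = g' := inv_eq_right_inv hg
  rw [nv, nv, Matrix.mul_inv_rev, Matrix.mul_inv_rev, ← conjTranspose_nonsing_inv, e, star_vecMul,
    mulVec_mulVec, ← mulVec_mulVec, ← mulVec_mulVec, dotProduct_mulVec, vecMul_vecMul, hg,
    vecMul_one, mulVec_mulVec, Matrix.mul_assoc, ← conjTranspose_mul, hg, conjTranspose_one,
    Matrix.mul_one]

lemma nv_pos {H : M2} (h : H.PosDef) {v : V2} (hv : v ≠ 0) : 0 < nv H v := by
  obtain ⟨B, C, -, h0, h1, -⟩ := fac h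
  rw [nv_eq h1, en, norm_pos_iff]
  intro h2
  have h3 : v ᵥ* C = 0 := congrArg WithLp.ofLp h2
  apply hv
  rw [← vecMul_one v, ← h0, ← vecMul_vecMul, h3, zero_vecMul]

lemma nv_sq {H : M2} (h : H.PosDef) (v : V2) : v ⬝ᵥ H⁻¹ *ᵥ star v = ((nv H v ^ 2 : ℝ) : ℂ) := by
  obtain ⟨B, C, -, -, h1, -⟩ := fac h
  rw [nv_eq h1, h1]

lemma cs {H : M2} (h : H.PosDef) (v u : V2) : ∃ N : ℝ, 0 ≤ N ∧ star u ⬝ᵥ H *ᵥ u = N ∧
    ‖v ⬝ᵥ u‖ ^ 2 ≤ nv H v ^ 2 * N := by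
  obtain ⟨B, C, -, h0, h1, h2⟩ := fac h
  refine ⟨_, sq_nonneg _, h2 u, ?_⟩
  rw [nv_eq h1, ← mul_pow]
  refine pow_le_pow_left₀ (norm_nonneg _) (le_trans (le_of_eq ?_) (en_cs _ _)) 2
  rw [← dotProduct_mulVec, mulVec_mulVec, h0, one_mulVec]

/-- second derivative test -/
lemma second {φ P : ℂ → ℂ} {t₀ a b : ℂ} (hr : ∀ t, conj (φ t) = φ t)
    (h1 : ∀ᶠ t in 𝓝 t₀, ∃ Q, HasW φ t (P t) Q) (h2 : HasW P t₀ a b)
    (hm : IsLocalMin (fun t => (φ t).re) t₀) : 0 ≤ b.re := by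
  by_contra hb
  push Not at hb
  have l1 : ∀ (c : ℂ) (x : ℝ), HasDerivAt (fun x : ℝ => t₀ + x * c) c x := fun c x => by
    simpa using ((hasDerivAt_id x).ofReal_comp.mul_const c).const_add t₀
  have l2 : ∀ c : ℂ, Tendsto (fun x : ℝ => t₀ + x * c) (𝓝 0) (𝓝 t₀) := fun c => by
    simpa using (l1 c 0).continuousAt.tendsto
  have d : ∀ {F : ℂ → ℂ} {A B : ℂ} (c : ℂ) (x : ℝ), HasW F (t₀ + x * c) A B →
      HasDerivAt (fun x : ℝ => F (t₀ + x * c)) (A * c + B * conj c) x := fun c x h => by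
    simpa [Function.comp_def] using HasFDerivAt.comp_hasDerivAt (f := fun x : ℝ => t₀ + x * c) x h (l1 c x)
  let ψ : ℝ → ℝ := fun x => (φ (t₀ + x * 1)).re + (φ (t₀ + x * I)).re
  let ψ₁ : ℝ → ℝ := fun x => 2 * (P (t₀ + x * 1)).re - 2 * (P (t₀ + x * I)).im
  have e1 : ∀ᶠ x in 𝓝 (0 : ℝ), HasDerivAt ψ (ψ₁ x) x := by
    filter_upwards [(l2 1).eventually h1, (l2 I).eventually h1] with x ⟨Q, hQ⟩ ⟨Q', hQ'⟩
    have k := (hQ.unique (hQ.conj.congr (.of_forall fun t => (hr t).symm))).2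
    have k' := (hQ'.unique (hQ'.conj.congr (.of_forall fun t => (hr t).symm))).2
    have := (reCLM.hasFDerivAt.comp_hasDerivAt x (d 1 x hQ)).add
      (reCLM.hasFDerivAt.comp_hasDerivAt x (d I x hQ'))
    refine this.congr_deriv ?_
    rw [k, k']
    simp [ψ₁]; ring
  have e2 : HasDerivAt ψ₁ (4 * b.re) 0 := by
    have h3 : ∀ c : ℂ, HasW P (t₀ + (0 : ℝ) * c) a b := fun c => by simpa using h2
    have := ((reCLM.hasFDerivAt.comp_hasDerivAt (0 : ℝ) (d 1 0 (h3 1))).const_mul 2).sub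
      ((imCLM.hasFDerivAt.comp_hasDerivAt (0 : ℝ) (d I 0 (h3 I))).const_mul 2)
    refine this.congr_deriv ?_
    simp; ring
  have e3 : deriv ψ =ᶠ[𝓝 0] ψ₁ := e1.mono fun x hx => hx.deriv
  have e4 : deriv (deriv ψ) 0 = 4 * b.re := by rw [e3.deriv_eq, e2.deriv]
  have m1 : IsLocalMin ψ 0 := by
    filter_upwards [(l2 1).eventually hm, (l2 I).eventually hm] with x k k'
    simp only [ψ, ofReal_zero, zero_mul, add_zero]
    linarith
  have m2 : IsLocalMax ψ 0 := isLocalMax_of_deriv_deriv_neg (by linarith) m1.deriv_eq_zero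
    e1.self_of_nhds.continuousAt
  have e5 : ψ =ᶠ[𝓝 0] fun _ => ψ 0 := (m1.and m2).mono fun x hx => le_antisymm hx.2 hx.1
  have e6 := e5.deriv.deriv_eq
  rw [e4] at e6
  simp at e6
  linarith

lemma hasW_sum {F : Fin 2 → ℂ → ℂ} {A B : Fin 2 → ℂ} {z : ℂ} (h : ∀ i, HasW (F i) z (A i) (B i)) :
    HasW (fun z => ∑ i, F i z) z (∑ i, A i) (∑ i, B i) := by
  simpa only [Fin.sum_univ_two] using (h 0).add (h 1)

lemma hasW_line {G : ℂ × ℂ → M2} (hG : ∀ i j, Differentiable ℝ fun w => G w i j) (z ξ : ℂ × ℂ)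
    (t : ℂ) (i j : Fin 2) : HasW (fun t => G (z + t • ξ) i j) t (dz G ξ (z + t • ξ) i j)
      (dzb G ξ (z + t • ξ) i j) := by
  have h1 : HasFDerivAt (fun t : ℂ => z + t • ξ)
      ((ContinuousLinearMap.toSpanSingleton ℂ ξ).restrictScalars ℝ) t :=
    ((ContinuousLinearMap.toSpanSingleton ℂ ξ).restrictScalars ℝ).hasFDerivAt.const_add z
  have h2 := (hG i j (z + t • ξ)).hasFDerivAt.comp t h1
  rw [exists_wl (ContinuousLinearMap.comp _ _)] at h2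
  simpa [dz, dzb, HasW, Function.comp_def] using h2

variable {H : ℂ × ℂ → M2}

lemma inv_smooth (hs : ∀ i j, ContDiff ℝ ∞ fun z => H z i j) (hp : ∀ z, (H z).PosDef) (i j : Fin 2) :
    ContDiff ℝ ∞ fun z => (H z)⁻¹ i j := by
  have h1 : ContDiff ℝ ∞ fun z => ((H z).det)⁻¹ := by
    refine ContDiff.inv ?_ fun z => ((Matrix.isUnit_iff_isUnit_det _).1 (hp z).isUnit).ne_zero
    simp only [det_fin_two]
    exact ((hs 0 0).mul (hs 1 1)).sub ((hs 0 1).mul (hs 1 0))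
  simp only [Matrix.inv_def, Ring.inverse_eq_inv', Matrix.smul_apply, smul_eq_mul, adjugate_fin_two]
  refine h1.mul ?_
  fin_cases i <;> fin_cases j
  exacts [hs 1 1, (hs 0 1).neg, (hs 1 0).neg, hs 0 0]

lemma conn_diff (hs : ∀ i j, ContDiff ℝ ∞ fun z => H z i j) (hp : ∀ z, (H z).PosDef) (ξ : ℂ × ℂ)
    (i j : Fin 2) : Differentiable ℝ fun w => ((H w)⁻¹ * dz H ξ w) i j := by
  have h1 : ∀ i j (η : ℂ × ℂ), Differentiable ℝ fun w => fderiv ℝ (fun w => H w i j) w η :=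
    fun i j η => (((hs i j).fderiv_right (m := 1) (by norm_cast)).differentiable
      one_ne_zero).clm_apply (differentiable_const η)
  have h2 := fun i j => (inv_smooth hs hp i j).differentiable (by simp)
  have h3 : ∀ i j, Differentiable ℝ fun w => dz H ξ w i j := fun i j =>
    ((h1 i j ξ).sub ((h1 i j (I • ξ)).const_mul I)).mul_const (2 : ℂ)⁻¹
  simp only [Matrix.mul_apply, Fin.sum_univ_two]
  exact ((h2 i 0).mul (h3 0 j)).add ((h2 i 1).mul (h3 1 j))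

lemma nomax (hs : ∀ i j, ContDiff ℝ ∞ fun z => H z i j) (hp : ∀ z, (H z).PosDef) {z ξ : ℂ × ℂ}
    {t₀ : ℂ} (hc : ∀ u, u ≠ 0 → 0 < (star u ⬝ᵥ (H (z + t₀ • ξ) * curv H ξ (z + t₀ • ξ)) *ᵥ u).re)
    {V : ℂ → V2} (hV : ∀ i, AnalyticAt ℂ (fun t => V t i) t₀) (h0 : V t₀ ≠ 0) :
    ¬IsLocalMax (fun t => nv (H (z + t • ξ)) (V t)) t₀ := by
  intro hm
  let A : ℂ × ℂ → M2 := fun w => (H w)⁻¹ * dz H ξ w
  have hA := hasW_line (G := A) (conn_diff hs hp ξ) z ξ t₀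
  have hH := hasW_line (G := H) (fun i j => (hs i j).differentiable (by simp)) z ξ
  have iv : ∀ w, H w * (H w)⁻¹ = 1 := fun w =>
    mul_nonsing_inv _ ((Matrix.isUnit_iff_isUnit_det _).1 (hp w).isUnit)
  obtain ⟨u₀, hu₀⟩ : ∃ u₀, u₀ = (H (z + t₀ • ξ))⁻¹ *ᵥ star (V t₀) := ⟨_, rfl⟩
  obtain ⟨u₁, hu₁⟩ : ∃ u₁, u₁ = -(A (z + t₀ • ξ) *ᵥ u₀) := ⟨_, rfl⟩
  obtain ⟨q, hq⟩ : ∃ q : ℝ, q = nv (H (z + t₀ • ξ)) (V t₀) ^ 2 := ⟨_, rfl⟩
  have q0 : 0 < q := hq ▸ pow_pos (nv_pos (hp _) h0) 2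
  have a1 : H (z + t₀ • ξ) *ᵥ u₀ = star (V t₀) := by rw [hu₀, mulVec_mulVec, iv, one_mulVec]
  have a2 : V t₀ ⬝ᵥ u₀ = q := by rw [hu₀, nv_sq (hp _), hq]
  have u0 : u₀ ≠ 0 := by
    rintro rfl
    rw [dotProduct_zero] at a2
    exact q0.ne (by exact_mod_cast a2)
  let u : ℂ → V2 := fun t => u₀ + (t - t₀) • u₁
  have ut : u t₀ = u₀ := by simp [u]
  have hu : ∀ t i, HasW (fun t => u t i) t (u₁ i) 0 := fun t i => hasW_of (by
    simpa [u] using (((hasDerivAt_id t).sub_const t₀).mul_const (u₁ i)).const_add (u₀ i))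
  let d : ℂ → ℂ := fun t => V t ⬝ᵥ u t
  have hd : AnalyticAt ℂ d t₀ := by
    have b1 := hV 0
    have b2 := hV 1
    simp only [d, u, dotProduct, Fin.sum_univ_two, Pi.add_apply, Pi.smul_apply, smul_eq_mul]
    fun_prop
  let y : ℂ → V2 := fun t => A (z + t • ξ) *ᵥ u t + u₁
  have y0 : y t₀ = 0 := by simp only [y, ut, hu₁, add_neg_cancel]
  have hy : ∀ j, ∃ a, HasW (fun t => y t j) t₀ a ((dzb A ξ (z + t₀ • ξ) *ᵥ u₀) j) := fun j =>
    ⟨_, ((hasW_sum fun k => (hA j k).mul (hu t₀ k)).add (hasW_const (u₁ j) t₀)).of_eq rfl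
      (by simp [ut, mulVec, dotProduct])⟩
  choose a hy using hy
  have key := second (φ := fun t => q * (star (u t) ⬝ᵥ H (z + t • ξ) *ᵥ u t) - d t * conj (d t))
    (P := fun t => q * (star (u t) ⬝ᵥ H (z + t • ξ) *ᵥ y t) - deriv d t * conj (d t))
    (t₀ := t₀) (fun t => ?_) ?_
    (((hasW_sum fun i => (hu t₀ i).conj.mul (hasW_sum fun j => (hH t₀ i j).mul (hy j))).cmul q).sub
      ((hasW_of hd.deriv.differentiableAt.hasDerivAt).mul
        (hasW_of hd.differentiableAt.hasDerivAt).conj)) ?_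
  · have b1 := hc u₀ u0
    have b2 : (star u₀ ⬝ᵥ (H (z + t₀ • ξ) * curv H ξ (z + t₀ • ξ)) *ᵥ u₀) =
        -(star u₀ ⬝ᵥ H (z + t₀ • ξ) *ᵥ (dzb A ξ (z + t₀ • ξ) *ᵥ u₀)) := by
      rw [← mulVec_mulVec, curv, neg_mulVec, mulVec_neg, dotProduct_neg]
    rw [b2] at b1
    simp only [y0, ut, Pi.zero_apply, mul_zero, zero_add, Finset.sum_const_zero, zero_mul,
      mul_conj, sub_re, re_ofReal_mul, ofReal_re] at key
    have b3 := normSq_nonneg (deriv d t₀)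
    have b4 := mul_pos q0 b1
    simp only [dotProduct, mulVec, Pi.star_apply, star_def, neg_re] at b4 key
    linarith
  · obtain ⟨N, -, hN, -⟩ := cs (hp (z + t • ξ)) 0 (u t)
    simp only [hN, map_sub, map_mul, conj_ofReal, conj_conj, mul_comm (d t)]
  · filter_upwards [hd.eventually_analyticAt] with t ht
    refine ⟨_, (((hasW_sum fun i => (hu t i).conj.mul
      (hasW_sum fun j => (hH t i j).mul (hu t j))).cmul q).sub
      ((hasW_of ht.differentiableAt.hasDerivAt).mul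
        (hasW_of ht.differentiableAt.hasDerivAt).conj)).of_eq ?_ rfl⟩
    simp only [y, A, mulVec_add, mulVec_mulVec, ← Matrix.mul_assoc, iv, Matrix.one_mul]
    simp only [dotProduct, mulVec, Fin.sum_univ_two, Pi.add_apply, Pi.star_apply, star_def, map_zero]
    ring
  · filter_upwards [hm] with t ht
    obtain ⟨N, N0, hN, hN'⟩ := cs (hp (z + t • ξ)) (V t) (u t)
    have b1 : star u₀ ⬝ᵥ star (V t₀) = q := by
      rw [star_dotProduct_star, a2]; simp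
    have b2 : nv (H (z + t • ξ)) (V t) ^ 2 ≤ q :=
      hq ▸ pow_le_pow_left₀ (Real.sqrt_nonneg _) ht 2
    simp only [d, hN, ut, a1, a2, b1, mul_conj, normSq_eq_norm_sq, sub_re, ← ofReal_mul, ofReal_re,
      conj_ofReal, sub_self, zero_re]
    nlinarith [mul_le_mul_of_nonneg_right b2 N0]

end Me

open Matrix Me in
theorem met : MetStmt := by
  refine ⟨fun H h => ⟨nv_add h, nv_smul h, nv_glue H⟩, fun H hs hp hc => ?_⟩
  have h1 : Continuous fun w : (ℂ × ℂ) × V2 => nv (H w.1) w.2 := by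
    have h2 : Continuous fun w : (ℂ × ℂ) × V2 => (H w.1)⁻¹ :=
      continuous_matrix fun i j => (inv_smooth hs hp i j).continuous.comp continuous_fst
    exact (Complex.continuous_re.comp
      (continuous_snd.dotProduct (h2.matrix_mulVec continuous_snd.star))).sqrt
  refine ⟨h1, fun z ξ v hξ hv h0 => ⟨h1.comp (f := fun t : ℂ => (z + t • ξ, v t))
    ((by fun_prop : Continuous fun t : ℂ => z + t • ξ).prodMk hv.continuous),
    fun t => nv_pos (hp _) (h0 t), fun t₀ g hg g0 => ?_⟩⟩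
  simp only [← nv_smul (hp _)]
  refine nomax hs hp (fun u hu => hc _ _ u hξ hu) (fun i => hg.mul ?_) (smul_ne_zero g0 (h0 t₀))
  exact (differentiable_pi.1 hv i).analyticAt t₀

end Vale.Agent.P296
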