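import Vale.Agent.P296.Defs

/-! Explicit polynomial data over the field generated by the square root of three. -/

namespace Vale.Agent.P296

noncomputable def th : ℂ := (√3 : ℝ)

theorem th_sq : th ^ 2 = 3 := by
  rw [th, ← Complex.ofReal_pow, Real.sq_sqrt (by norm_num)]; simp

noncomputable def pp : ℂ := (th - 1) / 2
noncomputable def ss : ℂ := (th + 1) / 2

/-- the union of the three graphs -/
noncomputable def Fh (x0 x1 y0 y1 : ℂ) : ℂ :=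
  (y1 * x0 - y0 * x1) * ((-pp * y0 + pp * y1) * x0 - (ss * y0 + ss * y1) * x1) *
    ((ss * y0 + pp * y1) * x0 - (ss * y0 - pp * y1) * x1)

noncomputable def T0 (x y0 y1 : ℂ) : ℂ :=
    (1+0*th)*y1^6 + (79-49*th)/8*y0*y1^5 + (-401+198*th)/8*y0^2*y1^4 + (121-88*th)/2*y0^3*y1^3 +
    (-281+113*th)/4*y0^4*y1^2 + (105-135*th)/8*y0^5*y1 + (-41+0*th)/8*y0^6 +
    (-79+49*th)/8*x*y1^6 + (257-131*th)/4*x*y0*y1^5 + (-763+519*th)/8*x*y0^2*y1^4 +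
    (239-112*th)/2*x*y0^3*y1^3 + (-325+263*th)/8*x*y0^4*y1^2 + (9+3*th)/4*x*y0^5*y1 +
    (15-15*th)/8*x*y0^6 + (-113+64*th)/8*x^2*y1^6 + (279-167*th)/8*x^2*y0*y1^5 +
    (-197+111*th)/4*x^2*y0^2*y1^4 + (55-32*th)/2*x^2*y0^3*y1^3 + (23-6*th)/8*x^2*y0^4*y1^2 +
    (-15+15*th)/8*x^2*y0^5*y1

noncomputable def T1 (x y0 y1 : ℂ) : ℂ :=
    (15+15*th)/8*x^2*y0*y1^5 + (23+6*th)/8*x^2*y0^2*y1^4 + (-55-32*th)/2*x^2*y0^3*y1^3 +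
    (-197-111*th)/4*x^2*y0^4*y1^2 + (-279-167*th)/8*x^2*y0^5*y1 + (-113-64*th)/8*x^2*y0^6 +
    (-15-15*th)/8*x*y1^6 + (9-3*th)/4*x*y0*y1^5 + (325+263*th)/8*x*y0^2*y1^4 +
    (239+112*th)/2*x*y0^3*y1^3 + (763+519*th)/8*x*y0^4*y1^2 + (257+131*th)/4*x*y0^5*y1 +
    (79+49*th)/8*x*y0^6 + (-41+0*th)/8*y1^6 + (-105-135*th)/8*y0*y1^5 +
    (-281-113*th)/4*y0^2*y1^4 + (-121-88*th)/2*y0^3*y1^3 + (-401-198*th)/8*y0^4*y1^2 +
    (-79-49*th)/8*y0^5*y1 + (1+0*th)*y0^6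

noncomputable def kh (x y0 y1 : ℂ) : ℂ :=
    (15+15*th)/4*y1^3 + (83+36*th)/4*y0*y1^2 + (23+18*th)/2*y0^2*y1 + (34+15*th)/4*y0^3 +
    (11+0*th)/4*x*y1^3 + (1+9*th)/4*x*y0*y1^2 + (-8-9*th)/4*x*y0^2*y1 + (-1+1*th)*x^2*y1^3 +
    (4-3*th)/4*x^2*y0*y1^2 + (-5-3*th)/4*x^2*y0^2*y1 + (7+4*th)/4*x^2*y0^3 +
    (6-3*th)/4*x^3*y1^3 + (-1+0*th)/2*x^3*y0*y1^2 + (-1+0*th)/4*x^3*y0^2*y1 +
    (5+3*th)/4*x^3*y0^3 + (-5+3*th)/4*x^4*y1^3 + (-1+0*th)/4*x^4*y0*y1^2 +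
    (1+0*th)/2*x^4*y0^2*y1 + (6+3*th)/4*x^4*y0^3 + (7-4*th)/4*x^5*y1^3 +
    (5-3*th)/4*x^5*y0*y1^2 + (4+3*th)/4*x^5*y0^2*y1 + (1+1*th)*x^5*y0^3 +
    (-8+9*th)/4*x^6*y0*y1^2 + (-1+9*th)/4*x^6*y0^2*y1 + (11+0*th)/4*x^6*y0^3 +
    (34-15*th)/4*x^7*y1^3 + (-23+18*th)/2*x^7*y0*y1^2 + (83-36*th)/4*x^7*y0^2*y1 +
    (-15+15*th)/4*x^7*y0^3

noncomputable def S0 (x0 x1 y : ℂ) : ℂ :=
    (1+0*th)*x1^6 + (-79-49*th)/8*x1^6*y + (-113-64*th)/8*x1^6*y^2 + (79+49*th)/8*x0*x1^5 +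
    (257+131*th)/4*x0*x1^5*y + (279+167*th)/8*x0*x1^5*y^2 + (-401-198*th)/8*x0^2*x1^4 +
    (-763-519*th)/8*x0^2*x1^4*y + (-197-111*th)/4*x0^2*x1^4*y^2 + (121+88*th)/2*x0^3*x1^3 +
    (239+112*th)/2*x0^3*x1^3*y + (55+32*th)/2*x0^3*x1^3*y^2 + (-281-113*th)/4*x0^4*x1^2 +
    (-325-263*th)/8*x0^4*x1^2*y + (23+6*th)/8*x0^4*x1^2*y^2 + (105+135*th)/8*x0^5*x1 +
    (9-3*th)/4*x0^5*x1*y + (-15-15*th)/8*x0^5*x1*y^2 + (-41+0*th)/8*x0^6 + (15+15*th)/8*x0^6*y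

noncomputable def S1 (x0 x1 y : ℂ) : ℂ :=
    (-15+15*th)/8*x1^6*y + (-41+0*th)/8*x1^6 + (15-15*th)/8*x0*x1^5*y^2 + (9+3*th)/4*x0*x1^5*y +
    (-105+135*th)/8*x0*x1^5 + (23-6*th)/8*x0^2*x1^4*y^2 + (325-263*th)/8*x0^2*x1^4*y +
    (-281+113*th)/4*x0^2*x1^4 + (-55+32*th)/2*x0^3*x1^3*y^2 + (239-112*th)/2*x0^3*x1^3*y +
    (-121+88*th)/2*x0^3*x1^3 + (-197+111*th)/4*x0^4*x1^2*y^2 + (763-519*th)/8*x0^4*x1^2*y +
    (-401+198*th)/8*x0^4*x1^2 + (-279+167*th)/8*x0^5*x1*y^2 + (257-131*th)/4*x0^5*x1*y +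
    (-79+49*th)/8*x0^5*x1 + (-113+64*th)/8*x0^6*y^2 + (79-49*th)/8*x0^6*y + (1+0*th)*x0^6

noncomputable def R00 (x y : ℂ) : ℂ :=
    (0+49*th)/2 + (2751-144*th)/16*y + (32+2555*th)/16*y^2 + (9225+910*th)/32*y^3 +
    (2505+3015*th)/32*y^4 + (1394+615*th)/32*y^5 + (-2751-144*th)/16*x + (0-2495*th)/8*x*y +
    (-26099-910*th)/32*x*y^2 + (-2377-6935*th)/16*x*y^3 + (-10960-3273*th)/32*x*y^4 +
    (-1721-1191*th)/32*x*y^5 + (-32+2555*th)/16*x^2 + (26099-910*th)/32*x^2*y +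
    (0+10855*th)/16*x^2*y^2 + (16085+1329*th)/16*x^2*y^3 + (3425+3855*th)/16*x^2*y^4 +
    (2473+1326*th)/32*x^2*y^5 + (-9225+910*th)/32*x^3 + (2377-6935*th)/16*x^3*y +
    (-16085+1329*th)/16*x^3*y^2 + (0-6519*th)/16*x^3*y^3 + (-5651-1326*th)/32*x^3*y^4 +
    (-120+45*th)/16*x^3*y^5 + (-2505+3015*th)/32*x^4 + (10960-3273*th)/32*x^4*y +
    (-3425+3855*th)/16*x^4*y^2 + (5651-1326*th)/32*x^4*y^3 + (0-45*th)/8*x^4*y^4 +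
    (-225+0*th)/16*x^4*y^5 + (-1394+615*th)/32*x^5 + (1721-1191*th)/32*x^5*y +
    (-2473+1326*th)/32*x^5*y^2 + (120+45*th)/16*x^5*y^3 + (225+0*th)/16*x^5*y^4

noncomputable def R01 (x y : ℂ) : ℂ :=
    (15-15*th)/4*y^5 + (1739-960*th)/16*y^4 + (-7044+4207*th)/16*y^3 + (19009-10458*th)/32*y^2 +
    (-14055+8679*th)/32*y + (3234-1617*th)/32 + (-1363+816*th)/16*x*y^5 +
    (7622-4521*th)/8*x*y^4 + (-82651+46602*th)/32*x*y^3 + (49731-29547*th)/16*x*y^2 +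
    (-69744+38799*th)/32*x*y + (14055-8679*th)/32*x + (-8028+4639*th)/16*x^2*y^5 +
    (88875-50502*th)/32*x^2*y^4 + (-83320+48943*th)/16*x^2*y^3 + (93157-52663*th)/16*x^2*y^2 +
    (-49731+29547*th)/16*x^2*y + (19009-10458*th)/32*x^2 + (-24945+14358*th)/32*x^3*y^5 +
    (49069-28667*th)/16*x^3*y^4 + (-87877+50073*th)/16*x^3*y^3 + (83320-48943*th)/16*x^3*y^2 +
    (-82651+46602*th)/32*x^3*y + (7044-4207*th)/16*x^3 + (-17001+9863*th)/32*x^4*y^5 +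
    (62768-35873*th)/32*x^4*y^4 + (-49069+28667*th)/16*x^4*y^3 + (88875-50502*th)/32*x^4*y^2 +
    (-7622+4521*th)/8*x^4*y + (1739-960*th)/16*x^4 + (-6722+3871*th)/32*x^5*y^5 +
    (17001-9863*th)/32*x^5*y^4 + (-24945+14358*th)/32*x^5*y^3 + (8028-4639*th)/16*x^5*y^2 +
    (-1363+816*th)/16*x^5*y + (-15+15*th)/4*x^5

noncomputable def R10 (x y : ℂ) : ℂ :=
    (-15-15*th)/4*x^5 + (1363+816*th)/16*x^5*y + (8028+4639*th)/16*x^5*y^2 +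
    (24945+14358*th)/32*x^5*y^3 + (17001+9863*th)/32*x^5*y^4 + (6722+3871*th)/32*x^5*y^5 +
    (-1739-960*th)/16*x^4 + (-7622-4521*th)/8*x^4*y + (-88875-50502*th)/32*x^4*y^2 +
    (-49069-28667*th)/16*x^4*y^3 + (-62768-35873*th)/32*x^4*y^4 + (-17001-9863*th)/32*x^4*y^5 +
    (7044+4207*th)/16*x^3 + (82651+46602*th)/32*x^3*y + (83320+48943*th)/16*x^3*y^2 +
    (87877+50073*th)/16*x^3*y^3 + (49069+28667*th)/16*x^3*y^4 + (24945+14358*th)/32*x^3*y^5 +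
    (-19009-10458*th)/32*x^2 + (-49731-29547*th)/16*x^2*y + (-93157-52663*th)/16*x^2*y^2 +
    (-83320-48943*th)/16*x^2*y^3 + (-88875-50502*th)/32*x^2*y^4 + (-8028-4639*th)/16*x^2*y^5 +
    (14055+8679*th)/32*x + (69744+38799*th)/32*x*y + (49731+29547*th)/16*x*y^2 +
    (82651+46602*th)/32*x*y^3 + (7622+4521*th)/8*x*y^4 + (1363+816*th)/16*x*y^5 +
    (-3234-1617*th)/32 + (-14055-8679*th)/32*y + (-19009-10458*th)/32*y^2 +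
    (-7044-4207*th)/16*y^3 + (-1739-960*th)/16*y^4 + (15+15*th)/4*y^5

noncomputable def R11 (x y : ℂ) : ℂ :=
    (-225+0*th)/16*x^5*y^4 + (120-45*th)/16*x^5*y^3 + (2473+1326*th)/32*x^5*y^2 +
    (1721+1191*th)/32*x^5*y + (1394+615*th)/32*x^5 + (225+0*th)/16*x^4*y^5 +
    (0+45*th)/8*x^4*y^4 + (-5651-1326*th)/32*x^4*y^3 + (-3425-3855*th)/16*x^4*y^2 +
    (-10960-3273*th)/32*x^4*y + (-2505-3015*th)/32*x^4 + (-120-45*th)/16*x^3*y^5 +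
    (5651-1326*th)/32*x^3*y^4 + (0+6519*th)/16*x^3*y^3 + (16085+1329*th)/16*x^3*y^2 +
    (2377+6935*th)/16*x^3*y + (9225+910*th)/32*x^3 + (-2473+1326*th)/32*x^2*y^5 +
    (3425-3855*th)/16*x^2*y^4 + (-16085+1329*th)/16*x^2*y^3 + (0-10855*th)/16*x^2*y^2 +
    (-26099-910*th)/32*x^2*y + (-32-2555*th)/16*x^2 + (-1721+1191*th)/32*x*y^5 +
    (10960-3273*th)/32*x*y^4 + (-2377+6935*th)/16*x*y^3 + (26099-910*th)/32*x*y^2 +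
    (0+2495*th)/8*x*y + (2751-144*th)/16*x + (-1394+615*th)/32*y^5 + (2505-3015*th)/32*y^4 +
    (-9225+910*th)/32*y^3 + (32-2555*th)/16*y^2 + (-2751-144*th)/16*y + (0-49*th)/2

theorem T1_eq {x : ℂ} (hx : x ≠ 0) (y0 y1 : ℂ) :
    T1 x⁻¹ y0 y1 = x ^ 6 * T0 x y0 y1 + Fh x 1 y0 y1 * (x⁻¹ ^ 2 * kh x y0 y1) := by
  have e : x * x⁻¹ = 1 := mul_inv_cancel₀ hx
  generalize x⁻¹ = u at e
  have h : T1 0 y0 y1 * x ^ 2 + (T1 1 y0 y1 - T1 (-1) y0 y1) / 2 * x +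
      ((T1 1 y0 y1 + T1 (-1) y0 y1) / 2 - T1 0 y0 y1) =
      x ^ 8 * T0 x y0 y1 + Fh x 1 y0 y1 * kh x y0 y1 := by
    unfold T0 T1 kh Fh pp ss
    linear_combination (
      (-15/16*y0*y1^5) + (-15/16*y0*y1^5*th) + (-53/16*y0^2*y1^4) + (-9/4*y0^2*y1^4*th) +
      (71/16*y0^3*y1^3) + (-21/16*y0^3*y1^3*th) + (193/16*y0^4*y1^2) + (21/16*y0^4*y1^2*th) +
      (37/4*y0^5*y1) + (9/4*y0^5*y1*th) + (4*y0^6) + (15/16*y0^6*th) + (15/16*x*y1^6) +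
      (15/16*x*y1^6*th) + (3/4*x*y0*y1^5) + (9/4*x*y0*y1^5*th) + (-51/4*x*y0^2*y1^4) +
      (-3*x*y0^2*y1^4*th) + (-295/8*x*y0^3*y1^3) + (-39/4*x*y0^3*y1^3*th) +
      (-433/16*x*y0^4*y1^2) + (-171/16*x*y0^4*y1^2*th) + (-149/8*x*y0^5*y1) +
      (-21/4*x*y0^5*y1*th) + (-15/8*x*y0^6) + (41/16*x^2*y1^6) + (61/8*x^2*y0*y1^5) +
      (5*x^2*y0*y1^5*th) + (95/4*x^2*y0^2*y1^4) + (87/8*x^2*y0^2*y1^4*th) +
      (333/16*x^2*y0^3*y1^3) + (127/16*x^2*y0^3*y1^3*th) + (113/8*x^2*y0^4*y1^2) +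
      (77/16*x^2*y0^4*y1^2*th) + (29/16*x^2*y0^5*y1) + (-39/16*x^2*y0^5*y1*th) +
      (-19/16*x^2*y0^6) + (-11/16*x^2*y0^6*th) + (11/16*x^3*y1^6) + (-11/16*x^3*y1^6*th) +
      (7/8*x^3*y0*y1^5) + (-9/4*x^3*y0*y1^5*th) + (-47/16*x^3*y0^2*y1^4) +
      (1/16*x^3*y0^2*y1^4*th) + (1/2*x^3*y0^3*y1^3) + (-1/2*x^3*y0^3*y1^3*th) +
      (-7/16*x^3*y0^4*y1^2) + (39/16*x^3*y0^4*y1^2*th) + (5/8*x^3*y0^5*y1) +
      (1/4*x^3*y0^5*y1*th) + (3/16*x^3*y0^6) + (3/16*x^3*y0^6*th) + (3/16*x^4*y1^6) +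
      (-3/16*x^4*y1^6*th) + (-1/8*x^4*y0*y1^5) + (1/2*x^4*y0*y1^5*th) + (1/16*x^4*y0^2*y1^4) +
      (9/16*x^4*y0^2*y1^4*th) + (5/4*x^4*y0^3*y1^3) + (-1/4*x^4*y0^3*y1^3*th) +
      (-11/16*x^4*y0^4*y1^2) + (11/16*x^4*y0^4*y1^2*th) + (-1/8*x^4*y0^5*y1) +
      (-3/4*x^4*y0^5*y1*th) + (-1/16*x^4*y0^6) + (-1/16*x^4*y0^6*th) + (1/16*x^5*y1^6) +
      (-1/16*x^5*y1^6*th) + (-1/8*x^5*y0*y1^5) + (-1/2*x^5*y0*y1^5*th) + (-13/16*x^5*y0^2*y1^4) +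
      (-5/16*x^5*y0^2*y1^4*th) + (-1/2*x^5*y0^3*y1^3*th) + (-13/16*x^5*y0^4*y1^2) +
      (5/16*x^5*y0^4*y1^2*th) + (1/8*x^5*y0^5*y1) + (-1/2*x^5*y0^5*y1*th) + (1/16*x^5*y0^6) +
      (1/16*x^5*y0^6*th) + (1/16*x^6*y1^6) + (-1/16*x^6*y1^6*th) + (-1/8*x^6*y0*y1^5) +
      (3/4*x^6*y0*y1^5*th) + (11/16*x^6*y0^2*y1^4) + (11/16*x^6*y0^2*y1^4*th) +
      (5/4*x^6*y0^3*y1^3) + (1/4*x^6*y0^3*y1^3*th) + (-1/16*x^6*y0^4*y1^2) +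
      (9/16*x^6*y0^4*y1^2*th) + (-1/8*x^6*y0^5*y1) + (-1/2*x^6*y0^5*y1*th) + (-3/16*x^6*y0^6) +
      (-3/16*x^6*y0^6*th) + (3/16*x^7*y1^6) + (-3/16*x^7*y1^6*th) + (-5/8*x^7*y0*y1^5) +
      (1/4*x^7*y0*y1^5*th) + (-7/16*x^7*y0^2*y1^4) + (-39/16*x^7*y0^2*y1^4*th) +
      (-1/2*x^7*y0^3*y1^3) + (-1/2*x^7*y0^3*y1^3*th) + (-47/16*x^7*y0^4*y1^2) +
      (-1/16*x^7*y0^4*y1^2*th) + (-7/8*x^7*y0^5*y1) + (-9/4*x^7*y0^5*y1*th) + (11/16*x^7*y0^6) +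
      (11/16*x^7*y0^6*th) + (19/16*x^8*y1^6) + (-11/16*x^8*y1^6*th) + (29/16*x^8*y0*y1^5) +
      (39/16*x^8*y0*y1^5*th) + (-113/8*x^8*y0^2*y1^4) + (77/16*x^8*y0^2*y1^4*th) +
      (333/16*x^8*y0^3*y1^3) + (-127/16*x^8*y0^3*y1^3*th) + (-95/4*x^8*y0^4*y1^2) +
      (87/8*x^8*y0^4*y1^2*th) + (61/8*x^8*y0^5*y1) + (-5*x^8*y0^5*y1*th) + (-41/16*x^8*y0^6) +
      (-15/8*x^9*y1^6) + (149/8*x^9*y0*y1^5) + (-21/4*x^9*y0*y1^5*th) + (-433/16*x^9*y0^2*y1^4) +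
      (171/16*x^9*y0^2*y1^4*th) + (295/8*x^9*y0^3*y1^3) + (-39/4*x^9*y0^3*y1^3*th) +
      (-51/4*x^9*y0^4*y1^2) + (3*x^9*y0^4*y1^2*th) + (-3/4*x^9*y0^5*y1) + (9/4*x^9*y0^5*y1*th) +
      (15/16*x^9*y0^6) + (-15/16*x^9*y0^6*th) + (-4*x^10*y1^6) + (15/16*x^10*y1^6*th) +
      (37/4*x^10*y0*y1^5) + (-9/4*x^10*y0*y1^5*th) + (-193/16*x^10*y0^2*y1^4) +
      (21/16*x^10*y0^2*y1^4*th) + (71/16*x^10*y0^3*y1^3) + (21/16*x^10*y0^3*y1^3*th) +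
      (53/16*x^10*y0^4*y1^2) + (-9/4*x^10*y0^4*y1^2*th) + (-15/16*x^10*y0^5*y1) +
      (15/16*x^10*y0^5*y1*th)) * th_sq
  have h' : T1 u y0 y1 = T1 0 y0 y1 + (T1 1 y0 y1 - T1 (-1) y0 y1) / 2 * u +
      ((T1 1 y0 y1 + T1 (-1) y0 y1) / 2 - T1 0 y0 y1) * u ^ 2 := by
    unfold T1; ring
  linear_combination h' + u ^ 2 * h + (x ^ 6 * T0 x y0 y1 * (x * u + 1) - T1 0 y0 y1 * (x * u + 1) -
    (T1 1 y0 y1 - T1 (-1) y0 y1) / 2 * u) * e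

theorem bez00 (x y : ℂ) : T0 x y 1 * S0 x 1 y + Fh x 1 y 1 * R00 x y = 1 := by
  unfold T0 S0 R00 Fh pp ss
  linear_combination (
      (49/8*y*th) + (273/4*y^2) + (-9/4*y^2*th) + (-3515/32*y^3) + (2163/64*y^3*th) +
      (3231/128*y^4) + (599/64*y^4*th) + (13309/128*y^5) + (-2095/128*y^5*th) + (-31379/128*y^6) +
      (-295/128*y^6*th) + (7515/128*y^7) + (-3015/128*y^7*th) + (-41/2*y^8) + (-615/128*y^8*th) +
      (-49/8*x*th) + (-273/2*x*y) + (3515/32*x*y^2) + (-5585/64*x*y^2*th) + (18805/32*x*y^3) +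
      (-743/32*x*y^3*th) + (-90571/128*x*y^4) + (18645/128*x*y^4*th) + (66363/64*x*y^5) +
      (393/32*x*y^5*th) + (15323/64*x*y^6) + (13877/64*x*y^6*th) + (-5135/64*x*y^7) +
      (1587/32*x*y^7*th) + (7253/128*x*y^8) + (1191/128*x*y^8*th) + (273/4*x^2) + (9/4*x^2*th) +
      (3515/32*x^2*y) + (5585/64*x^2*y*th) + (-78451/64*x^2*y^2) + (38631/64*x^2*y^3) +
      (-11049/32*x^2*y^3*th) + (-161133/128*x^2*y^4) + (-2547/128*x^2*y^4*th) +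
      (-34247/32*x^2*y^5) + (-23031/32*x^2*y^5*th) + (-12129/64*x^2*y^6) + (-9931/64*x^2*y^6*th) +
      (4877/64*x^2*y^7) + (-5325/64*x^2*y^7*th) + (-11123/128*x^2*y^8) + (-711/128*x^2*y^8*th) +
      (-3515/32*x^3) + (-2163/64*x^3*th) + (18805/32*x^3*y) + (743/32*x^3*y*th) +
      (38631/64*x^3*y^2) + (11049/32*x^3*y^2*th) + (29893/32*x^3*y^3) + (98827/128*x^3*y^4) +
      (158947/128*x^3*y^4*th) + (129339/64*x^3*y^5) + (5785/32*x^3*y^5*th) + (-18061/32*x^3*y^6) +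
      (10187/32*x^3*y^6*th) + (7163/64*x^3*y^7) + (1017/32*x^3*y^7*th) + (7651/128*x^3*y^8) +
      (-1281/128*x^3*y^8*th) + (3231/128*x^4) + (-599/64*x^4*th) + (-90571/128*x^4*y) +
      (-18645/128*x^4*y*th) + (-161133/128*x^4*y^2) + (2547/128*x^4*y^2*th) +
      (98827/128*x^4*y^3) + (-158947/128*x^4*y^3*th) + (-110763/32*x^4*y^4) +
      (55237/128*x^4*y^5) + (-77331/128*x^4*y^5*th) + (63443/128*x^4*y^6) +
      (-6003/128*x^4*y^6*th) + (-20229/128*x^4*y^7) + (9531/128*x^4*y^7*th) + (-737/128*x^4*y^8) +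
      (663/64*x^4*y^8*th) + (13309/128*x^5) + (2095/128*x^5*th) + (66363/64*x^5*y) +
      (-393/32*x^5*y*th) + (-34247/32*x^5*y^2) + (23031/32*x^5*y^2*th) + (129339/64*x^5*y^3) +
      (-5785/32*x^5*y^3*th) + (55237/128*x^5*y^4) + (77331/128*x^5*y^4*th) + (-33323/32*x^5*y^5) +
      (6289/64*x^5*y^6) + (-5547/32*x^5*y^6*th) + (1077/32*x^5*y^7) + (-663/32*x^5*y^7*th) +
      (-105/32*x^5*y^8) + (45/64*x^5*y^8*th) + (-31379/128*x^6) + (295/128*x^6*th) +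
      (15323/64*x^6*y) + (-13877/64*x^6*y*th) + (-12129/64*x^6*y^2) + (9931/64*x^6*y^2*th) +
      (-18061/32*x^6*y^3) + (-10187/32*x^6*y^3*th) + (63443/128*x^6*y^4) + (6003/128*x^6*y^4*th) +
      (6289/64*x^6*y^5) + (5547/32*x^6*y^5*th) + (-3571/64*x^6*y^6) + (105/32*x^6*y^7) +
      (-135/64*x^6*y^7*th) + (7515/128*x^7) + (3015/128*x^7*th) + (-5135/64*x^7*y) +
      (-1587/32*x^7*y*th) + (4877/64*x^7*y^2) + (5325/64*x^7*y^2*th) + (7163/64*x^7*y^3) +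
      (-1017/32*x^7*y^3*th) + (-20229/128*x^7*y^4) + (-9531/128*x^7*y^4*th) + (1077/32*x^7*y^5) +
      (663/32*x^7*y^5*th) + (105/32*x^7*y^6) + (135/64*x^7*y^6*th) + (-41/2*x^8) +
      (615/128*x^8*th) + (7253/128*x^8*y) + (-1191/128*x^8*y*th) + (-11123/128*x^8*y^2) +
      (711/128*x^8*y^2*th) + (7651/128*x^8*y^3) + (1281/128*x^8*y^3*th) + (-737/128*x^8*y^4) +
      (-663/64*x^8*y^4*th) + (-105/32*x^8*y^5) + (-45/64*x^8*y^5*th)) * th_sq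

theorem bez01 (x y : ℂ) : T0 x 1 y * S1 x 1 y + Fh x 1 1 y * R01 x y = 1 := by
  unfold T0 S1 R01 Fh pp ss
  linear_combination (
      (1617/128*th) + (-69/128*y) + (-8679/128*y*th) + (-16267/128*y^2) + (8841/128*y^2*th) +
      (10901/128*y^3) + (265/128*y^3*th) + (-8017/128*y^4) + (-4269/64*y^4*th) + (-1047/32*y^5) +
      (4267/64*y^5*th) + (281/16*y^6) + (-15*y^6*th) + (15/16*y^7) + (-15/16*y^7*th) +
      (69/128*x) + (8679/128*x*th) + (1449/64*x*y) + (-11721/32*x*y*th) + (-32769/64*x*y^2) +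
      (46905/64*x*y^2*th) + (39971/64*x*y^3) + (-14619/32*x*y^3*th) + (-44275/128*x*y^4) +
      (-7619/128*x*y^4*th) + (-947/32*x*y^5) + (11457/32*x*y^5*th) + (4901/32*x*y^6) +
      (-13549/64*x*y^6*th) + (-117/4*x*y^7) + (111/4*x*y^7*th) + (-15/16*x*y^8) +
      (15/16*x*y^8*th) + (-16267/128*x^2) + (8841/128*x^2*th) + (32769/64*x^2*y) +
      (-46905/64*x^2*y*th) + (-144417/64*x^2*y^2) + (143245/64*x^2*y^2*th) + (104903/32*x^2*y^3) +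
      (-90141/32*x^2*y^3*th) + (-288717/128*x^2*y^4) + (189757/128*x^2*y^4*th) +
      (43923/64*x^2*y^5) + (3773/32*x^2*y^5*th) + (22797/64*x^2*y^6) + (-4959/8*x^2*y^6*th) +
      (-6515/32*x^2*y^7) + (13981/64*x^2*y^7*th) + (187/16*x^2*y^8) + (-51/4*x^2*y^8*th) +
      (-10901/128*x^3) + (-265/128*x^3*th) + (39971/64*x^3*y) + (-14619/32*x^3*y*th) +
      (-104903/32*x^3*y^2) + (90141/32*x^3*y^2*th) + (482003/64*x^3*y^3) +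
      (-177067/32*x^3*y^3*th) + (-926349/128*x^3*y^4) + (667435/128*x^3*y^4*th) +
      (130797/32*x^3*y^5) + (-2354*x^3*y^5*th) + (-46973/64*x^3*y^6) + (-2469/32*x^3*y^6*th) +
      (-11491/32*x^3*y^7) + (13695/32*x^3*y^7*th) + (2661/32*x^3*y^8) + (-4699/64*x^3*y^8*th) +
      (-8017/128*x^4) + (-4269/64*x^4*th) + (44275/128*x^4*y) + (7619/128*x^4*y*th) +
      (-288717/128*x^4*y^2) + (189757/128*x^4*y^2*th) + (926349/128*x^4*y^3) +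
      (-667435/128*x^4*y^3*th) + (-329707/32*x^4*y^4) + (56739/8*x^4*y^4*th) +
      (979411/128*x^4*y^5) + (-662475/128*x^4*y^5*th) + (-439117/128*x^4*y^6) +
      (233251/128*x^4*y^6*th) + (47661/128*x^4*y^7) + (2723/128*x^4*y^7*th) +
      (12175/128*x^4*y^8) + (-6363/64*x^4*y^8*th) + (1047/32*x^5) + (-4267/64*x^5*th) +
      (-947/32*x^5*y) + (11457/32*x^5*y*th) + (-43923/64*x^5*y^2) + (-3773/32*x^5*y^2*th) +
      (130797/32*x^5*y^3) + (-2354*x^5*y^3*th) + (-979411/128*x^5*y^4) + (662475/128*x^5*y^4*th) +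
      (481187/64*x^5*y^5) + (-164893/32*x^5*y^5*th) + (-136673/32*x^5*y^6) +
      (89349/32*x^5*y^6*th) + (81427/64*x^5*y^7) + (-20637/32*x^5*y^7*th) + (-8187/128*x^5*y^8) +
      (-585/128*x^5*y^8*th) + (281/16*x^6) + (-15*x^6*th) + (-4901/32*x^6*y) +
      (13549/64*x^6*y*th) + (22797/64*x^6*y^2) + (-4959/8*x^6*y^2*th) + (46973/64*x^6*y^3) +
      (2469/32*x^6*y^3*th) + (-439117/128*x^6*y^4) + (233251/128*x^6*y^4*th) +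
      (136673/32*x^6*y^5) + (-89349/32*x^6*y^5*th) + (-201505/64*x^6*y^6) +
      (135075/64*x^6*y^6*th) + (78223/64*x^6*y^7) + (-48393/64*x^6*y^7*th) +
      (-21883/128*x^6*y^8) + (10487/128*x^6*y^8*th) + (-15/16*x^7) + (15/16*x^7*th) +
      (-117/4*x^7*y) + (111/4*x^7*y*th) + (6515/32*x^7*y^2) + (-13981/64*x^7*y^2*th) +
      (-11491/32*x^7*y^3) + (13695/32*x^7*y^3*th) + (-47661/128*x^7*y^4) +
      (-2723/128*x^7*y^4*th) + (81427/64*x^7*y^5) + (-20637/32*x^7*y^5*th) + (-78223/64*x^7*y^6) +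
      (48393/64*x^7*y^6*th) + (43833/64*x^7*y^7) + (-13807/32*x^7*y^7*th) + (-16821/128*x^7*y^8) +
      (9863/128*x^7*y^8*th) + (15/16*x^8*y) + (-15/16*x^8*y*th) + (187/16*x^8*y^2) +
      (-51/4*x^8*y^2*th) + (-2661/32*x^8*y^3) + (4699/64*x^8*y^3*th) + (12175/128*x^8*y^4) +
      (-6363/64*x^8*y^4*th) + (8187/128*x^8*y^5) + (585/128*x^8*y^5*th) + (-21883/128*x^8*y^6) +
      (10487/128*x^8*y^6*th) + (16821/128*x^8*y^7) + (-9863/128*x^8*y^7*th) + (-49*x^8*y^8) +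
      (3871/128*x^8*y^8*th)) * th_sq

theorem bez10 (x y : ℂ) : T1 x y 1 * S0 1 x y + Fh 1 x y 1 * R10 x y = 1 := by
  unfold T1 S0 R10 Fh pp ss
  linear_combination (
      (-1617/128*th) + (69/128*y) + (-8679/128*y*th) + (-16267/128*y^2) + (-8841/128*y^2*th) +
      (-10901/128*y^3) + (265/128*y^3*th) + (-8017/128*y^4) + (4269/64*y^4*th) + (1047/32*y^5) +
      (4267/64*y^5*th) + (281/16*y^6) + (15*y^6*th) + (-15/16*y^7) + (-15/16*y^7*th) +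
      (-69/128*x) + (8679/128*x*th) + (1449/64*x*y) + (11721/32*x*y*th) + (32769/64*x*y^2) +
      (46905/64*x*y^2*th) + (39971/64*x*y^3) + (14619/32*x*y^3*th) + (44275/128*x*y^4) +
      (-7619/128*x*y^4*th) + (-947/32*x*y^5) + (-11457/32*x*y^5*th) + (-4901/32*x*y^6) +
      (-13549/64*x*y^6*th) + (-117/4*x*y^7) + (-111/4*x*y^7*th) + (15/16*x*y^8) +
      (15/16*x*y^8*th) + (-16267/128*x^2) + (-8841/128*x^2*th) + (-32769/64*x^2*y) +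
      (-46905/64*x^2*y*th) + (-144417/64*x^2*y^2) + (-143245/64*x^2*y^2*th) +
      (-104903/32*x^2*y^3) + (-90141/32*x^2*y^3*th) + (-288717/128*x^2*y^4) +
      (-189757/128*x^2*y^4*th) + (-43923/64*x^2*y^5) + (3773/32*x^2*y^5*th) + (22797/64*x^2*y^6) +
      (4959/8*x^2*y^6*th) + (6515/32*x^2*y^7) + (13981/64*x^2*y^7*th) + (187/16*x^2*y^8) +
      (51/4*x^2*y^8*th) + (10901/128*x^3) + (-265/128*x^3*th) + (39971/64*x^3*y) +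
      (14619/32*x^3*y*th) + (104903/32*x^3*y^2) + (90141/32*x^3*y^2*th) + (482003/64*x^3*y^3) +
      (177067/32*x^3*y^3*th) + (926349/128*x^3*y^4) + (667435/128*x^3*y^4*th) +
      (130797/32*x^3*y^5) + (2354*x^3*y^5*th) + (46973/64*x^3*y^6) + (-2469/32*x^3*y^6*th) +
      (-11491/32*x^3*y^7) + (-13695/32*x^3*y^7*th) + (-2661/32*x^3*y^8) + (-4699/64*x^3*y^8*th) +
      (-8017/128*x^4) + (4269/64*x^4*th) + (-44275/128*x^4*y) + (7619/128*x^4*y*th) +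
      (-288717/128*x^4*y^2) + (-189757/128*x^4*y^2*th) + (-926349/128*x^4*y^3) +
      (-667435/128*x^4*y^3*th) + (-329707/32*x^4*y^4) + (-56739/8*x^4*y^4*th) +
      (-979411/128*x^4*y^5) + (-662475/128*x^4*y^5*th) + (-439117/128*x^4*y^6) +
      (-233251/128*x^4*y^6*th) + (-47661/128*x^4*y^7) + (2723/128*x^4*y^7*th) +
      (12175/128*x^4*y^8) + (6363/64*x^4*y^8*th) + (-1047/32*x^5) + (-4267/64*x^5*th) +
      (-947/32*x^5*y) + (-11457/32*x^5*y*th) + (43923/64*x^5*y^2) + (-3773/32*x^5*y^2*th) +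
      (130797/32*x^5*y^3) + (2354*x^5*y^3*th) + (979411/128*x^5*y^4) + (662475/128*x^5*y^4*th) +
      (481187/64*x^5*y^5) + (164893/32*x^5*y^5*th) + (136673/32*x^5*y^6) + (89349/32*x^5*y^6*th) +
      (81427/64*x^5*y^7) + (20637/32*x^5*y^7*th) + (8187/128*x^5*y^8) + (-585/128*x^5*y^8*th) +
      (281/16*x^6) + (15*x^6*th) + (4901/32*x^6*y) + (13549/64*x^6*y*th) + (22797/64*x^6*y^2) +
      (4959/8*x^6*y^2*th) + (-46973/64*x^6*y^3) + (2469/32*x^6*y^3*th) + (-439117/128*x^6*y^4) +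
      (-233251/128*x^6*y^4*th) + (-136673/32*x^6*y^5) + (-89349/32*x^6*y^5*th) +
      (-201505/64*x^6*y^6) + (-135075/64*x^6*y^6*th) + (-78223/64*x^6*y^7) +
      (-48393/64*x^6*y^7*th) + (-21883/128*x^6*y^8) + (-10487/128*x^6*y^8*th) + (15/16*x^7) +
      (15/16*x^7*th) + (-117/4*x^7*y) + (-111/4*x^7*y*th) + (-6515/32*x^7*y^2) +
      (-13981/64*x^7*y^2*th) + (-11491/32*x^7*y^3) + (-13695/32*x^7*y^3*th) +
      (47661/128*x^7*y^4) + (-2723/128*x^7*y^4*th) + (81427/64*x^7*y^5) + (20637/32*x^7*y^5*th) +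
      (78223/64*x^7*y^6) + (48393/64*x^7*y^6*th) + (43833/64*x^7*y^7) + (13807/32*x^7*y^7*th) +
      (16821/128*x^7*y^8) + (9863/128*x^7*y^8*th) + (-15/16*x^8*y) + (-15/16*x^8*y*th) +
      (187/16*x^8*y^2) + (51/4*x^8*y^2*th) + (2661/32*x^8*y^3) + (4699/64*x^8*y^3*th) +
      (12175/128*x^8*y^4) + (6363/64*x^8*y^4*th) + (-8187/128*x^8*y^5) + (585/128*x^8*y^5*th) +
      (-21883/128*x^8*y^6) + (-10487/128*x^8*y^6*th) + (-16821/128*x^8*y^7) +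
      (-9863/128*x^8*y^7*th) + (-49*x^8*y^8) + (-3871/128*x^8*y^8*th)) * th_sq

theorem bez11 (x y : ℂ) : T1 x 1 y * S1 1 x y + Fh 1 x 1 y * R11 x y = 1 := by
  unfold T1 S1 R11 Fh pp ss
  linear_combination (
      (49/8*y*th) + (273/4*y^2) + (9/4*y^2*th) + (3515/32*y^3) + (2163/64*y^3*th) +
      (3231/128*y^4) + (-599/64*y^4*th) + (-13309/128*y^5) + (-2095/128*y^5*th) +
      (-31379/128*y^6) + (295/128*y^6*th) + (-7515/128*y^7) + (-3015/128*y^7*th) + (-41/2*y^8) +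
      (615/128*y^8*th) + (-49/8*x*th) + (-273/2*x*y) + (-3515/32*x*y^2) + (-5585/64*x*y^2*th) +
      (18805/32*x*y^3) + (743/32*x*y^3*th) + (90571/128*x*y^4) + (18645/128*x*y^4*th) +
      (66363/64*x*y^5) + (-393/32*x*y^5*th) + (-15323/64*x*y^6) + (13877/64*x*y^6*th) +
      (-5135/64*x*y^7) + (-1587/32*x*y^7*th) + (-7253/128*x*y^8) + (1191/128*x*y^8*th) +
      (273/4*x^2) + (-9/4*x^2*th) + (-3515/32*x^2*y) + (5585/64*x^2*y*th) + (-78451/64*x^2*y^2) +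
      (-38631/64*x^2*y^3) + (-11049/32*x^2*y^3*th) + (-161133/128*x^2*y^4) +
      (2547/128*x^2*y^4*th) + (34247/32*x^2*y^5) + (-23031/32*x^2*y^5*th) + (-12129/64*x^2*y^6) +
      (9931/64*x^2*y^6*th) + (-4877/64*x^2*y^7) + (-5325/64*x^2*y^7*th) + (-11123/128*x^2*y^8) +
      (711/128*x^2*y^8*th) + (3515/32*x^3) + (-2163/64*x^3*th) + (18805/32*x^3*y) +
      (-743/32*x^3*y*th) + (-38631/64*x^3*y^2) + (11049/32*x^3*y^2*th) + (29893/32*x^3*y^3) +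
      (-98827/128*x^3*y^4) + (158947/128*x^3*y^4*th) + (129339/64*x^3*y^5) +
      (-5785/32*x^3*y^5*th) + (18061/32*x^3*y^6) + (10187/32*x^3*y^6*th) + (7163/64*x^3*y^7) +
      (-1017/32*x^3*y^7*th) + (-7651/128*x^3*y^8) + (-1281/128*x^3*y^8*th) + (3231/128*x^4) +
      (599/64*x^4*th) + (90571/128*x^4*y) + (-18645/128*x^4*y*th) + (-161133/128*x^4*y^2) +
      (-2547/128*x^4*y^2*th) + (-98827/128*x^4*y^3) + (-158947/128*x^4*y^3*th) +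
      (-110763/32*x^4*y^4) + (-55237/128*x^4*y^5) + (-77331/128*x^4*y^5*th) +
      (63443/128*x^4*y^6) + (6003/128*x^4*y^6*th) + (20229/128*x^4*y^7) + (9531/128*x^4*y^7*th) +
      (-737/128*x^4*y^8) + (-663/64*x^4*y^8*th) + (-13309/128*x^5) + (2095/128*x^5*th) +
      (66363/64*x^5*y) + (393/32*x^5*y*th) + (34247/32*x^5*y^2) + (23031/32*x^5*y^2*th) +
      (129339/64*x^5*y^3) + (5785/32*x^5*y^3*th) + (-55237/128*x^5*y^4) + (77331/128*x^5*y^4*th) +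
      (-33323/32*x^5*y^5) + (-6289/64*x^5*y^6) + (-5547/32*x^5*y^6*th) + (1077/32*x^5*y^7) +
      (663/32*x^5*y^7*th) + (105/32*x^5*y^8) + (45/64*x^5*y^8*th) + (-31379/128*x^6) +
      (-295/128*x^6*th) + (-15323/64*x^6*y) + (-13877/64*x^6*y*th) + (-12129/64*x^6*y^2) +
      (-9931/64*x^6*y^2*th) + (18061/32*x^6*y^3) + (-10187/32*x^6*y^3*th) + (63443/128*x^6*y^4) +
      (-6003/128*x^6*y^4*th) + (-6289/64*x^6*y^5) + (5547/32*x^6*y^5*th) + (-3571/64*x^6*y^6) +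
      (-105/32*x^6*y^7) + (-135/64*x^6*y^7*th) + (-7515/128*x^7) + (3015/128*x^7*th) +
      (-5135/64*x^7*y) + (1587/32*x^7*y*th) + (-4877/64*x^7*y^2) + (5325/64*x^7*y^2*th) +
      (7163/64*x^7*y^3) + (1017/32*x^7*y^3*th) + (20229/128*x^7*y^4) + (-9531/128*x^7*y^4*th) +
      (1077/32*x^7*y^5) + (-663/32*x^7*y^5*th) + (-105/32*x^7*y^6) + (135/64*x^7*y^6*th) +
      (-41/2*x^8) + (-615/128*x^8*th) + (-7253/128*x^8*y) + (-1191/128*x^8*y*th) +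
      (-11123/128*x^8*y^2) + (-711/128*x^8*y^2*th) + (-7651/128*x^8*y^3) + (1281/128*x^8*y^3*th) +
      (-737/128*x^8*y^4) + (663/64*x^8*y^4*th) + (105/32*x^8*y^5) + (-45/64*x^8*y^5*th)) * th_sq

theorem T0_gr1 (x : ℂ) : T0 x x 1 = 1 := by
  unfold T0
  linear_combination (
      0) * th_sq

theorem Fh_gr1 (x : ℂ) : Fh x 1 x 1 = 0 := by
  unfold Fh pp ss
  linear_combination (
      0) * th_sq

theorem T0_gr2 (x : ℂ) : T0 x (pp * x - ss) (pp * x + ss) = -1 := by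
  unfold T0 pp ss
  linear_combination (
      (3/4) + (47/8*th) + (51/4*th^2) + (57/4*th^3) + (8*th^4) + (15/8*th^5) + (35/16*x) +
      (175/16*x*th) + (175/8*x*th^2) + (175/8*x*th^3) + (175/16*x*th^4) + (35/16*x*th^5) +
      (-9/4*x^2) + (-165/32*x^2*th) + (15/8*x^2*th^2) + (225/16*x^2*th^3) + (105/8*x^2*th^4) +
      (123/32*x^2*th^5) + (-7/4*x^3) + (-49/8*x^3*th) + (-21/4*x^3*th^2) + (7/2*x^3*th^3) +
      (7*x^3*th^4) + (21/8*x^3*th^5) + (5/4*x^4) + (17/8*x^4*th) + (-5/2*x^4*th^2) +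
      (-17/4*x^4*th^3) + (5/4*x^4*th^4) + (17/8*x^4*th^5) + (-7/8*x^5*th) + (7/4*x^5*th^2) +
      (-7/4*x^5*th^4) + (7/8*x^5*th^5) + (1*x^6) + (-123/32*x^6*th) + (43/8*x^6*th^2) +
      (-49/16*x^6*th^3) + (3/8*x^6*th^4) + (5/32*x^6*th^5) + (-7/16*x^7) + (35/16*x^7*th) +
      (-35/8*x^7*th^2) + (35/8*x^7*th^3) + (-35/16*x^7*th^4) + (7/16*x^7*th^5)) * th_sq

theorem Fh_gr2 (x : ℂ) : Fh x 1 (pp * x - ss) (pp * x + ss) = 0 := by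
  unfold Fh pp ss
  linear_combination (
      0) * th_sq

theorem T0_gr3 (x : ℂ) : T0 x (pp * x + pp) (-ss * x + ss) = -1 := by
  unfold T0 pp ss
  linear_combination (
      (3/4) + (-35/32*th) + (-9/64*th^2) + (-7/32*th^3) + (-5/64*th^4) + (-7/32*th^5) +
      (35/16*x) + (-135/32*x*th) + (21/4*x*th^2) + (1/4*x*th^3) + (7/4*x*th^4) + (-11/32*x*th^5) +
      (-9/4*x^2) + (-315/32*x^2*th) + (6*x^2*th^2) + (-91/8*x^2*th^3) + (2*x^2*th^4) +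
      (-7/32*x^2*th^5) + (-7/4*x^3) + (281/32*x^3*th) + (147/8*x^3*th^2) + (-77/8*x^3*th^3) +
      (77/16*x^3*th^4) + (-27/32*x^3*th^5) + (5/4*x^4) + (63/8*x^4*th) + (-175/32*x^4*th^2) +
      (-7*x^4*th^3) + (165/32*x^4*th^4) + (-7/8*x^4*th^5) + (-295/32*x^5*th) + (-175/8*x^5*th^2) +
      (9/8*x^5*th^3) + (7/16*x^5*th^4) + (-19/32*x^5*th^5) + (1*x^6) + (91/32*x^6*th) +
      (12*x^6*th^2) + (147/8*x^6*th^3) + (-1/4*x^6*th^4) + (7/32*x^6*th^5) + (-7/16*x^7) +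
      (-39/32*x^7*th) + (-7/4*x^7*th^2) + (-6*x^7*th^3) + (-7*x^7*th^4) + (-3/32*x^7*th^5) +
      (7/32*x^8*th) + (23/64*x^8*th^2) + (7/32*x^8*th^3) + (75/64*x^8*th^4) + (35/32*x^8*th^5)) * th_sq

theorem Fh_gr3 (x : ℂ) : Fh x 1 (pp * x + pp) (-ss * x + ss) = 0 := by
  unfold Fh pp ss
  linear_combination (
      0) * th_sq

theorem T0_hom (c x y0 y1 : ℂ) : T0 x (c * y0) (c * y1) = c ^ 6 * T0 x y0 y1 := by
  unfold T0; ring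

theorem T1_hom (c x y0 y1 : ℂ) : T1 x (c * y0) (c * y1) = c ^ 6 * T1 x y0 y1 := by
  unfold T1; ring

theorem kh_hom (c x y0 y1 : ℂ) : kh x (c * y0) (c * y1) = c ^ 3 * kh x y0 y1 := by
  unfold kh; ring

theorem Fh_hom (c d x0 x1 y0 y1 : ℂ) :
    Fh (c * x0) (c * x1) (d * y0) (d * y1) = c ^ 3 * d ^ 3 * Fh x0 x1 y0 y1 := by
  unfold Fh; ring

theorem pp_mul_ss : pp * ss = 1 / 2 := by
  unfold pp ss; linear_combination (1 / 4) * th_sq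

end Vale.Agent.P296
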